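import Vale.Agent.P366M.Ext
import Vale.Agent.P366M.End3

/-!
# P366MM: the dual form of the minimal enclosing area. Definitions and exact statements.
-/

open MeasureTheory Set
open scoped ContDiff
open Vale.Agent.P366M

noncomputable section

namespace Vale.Agent.P366MM

variable {n : ℕ} {M : Type} [Mfe n M]

/-- the square of the length of the vector `X` at `x` -/
def sq (g : Fld n M) (x : M) (X : Fin n → ℝ) : ℝ := ∑ i, ∑ j, g x i j * X i * X j

/-- the flux of `Y` through the sphere of radius `R`; it is linear in `Y` -/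
def fx (g : Fld n M) (R : ℝ) (Y : Fin n → M → ℝ) : ℝ :=
  -∫ x in {x : M | R < ‖px x‖}, dv g (fun i y => cut (2 * R) y * Y i y) x * dens g x

/-- the part of the domain inside the sphere of radius `R` -/
def Ins (D : Exterior n M) (R : ℝ) : Set M := {x | 0 ≤ D.F x ∧ ‖px x‖ ≤ R}

/-- the lower bound for the area which is given by the field `Y` -/
def Lf (D : Exterior n M) (R : ℝ) (Y : Fin n → M → ℝ) : ℝ :=
  fx D.g R Y - ∫ x in Ins D R, max (dv D.g Y x) 0 * dens D.g x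

/-- the square of the radius -/
def rq (x : M) : ℝ := ‖px x‖ ^ 2

/-- LB: the lower bound, for any metric `D'.g` on the same domain; `Y` is read as the density
`dens D.g * Y`. -/
def LB : Prop := ∀ (n : ℕ) (M : Type) [Mfe n M] (D D' : Exterior n M) (R : ℝ)
  (Y : Fin n → M → ℝ), (∀ x, 0 ≤ D'.F x ↔ 0 ≤ D.F x) → 0 < R → CV ∞ Y →
  (∀ x, 0 ≤ D.F x → dens D.g x ^ 2 * sq D'.g x (fun i => Y i x) ≤ dens D'.g x ^ 2) →
  (∀ x, R < ‖px x‖ → 0 ≤ dv D.g Y x) → ENNReal.ofReal (Lf D R Y) ≤ D'.Amin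

/-- CO: a function with values in `[0, 1]` bounds the minimal area by its total variation. -/
def CO : Prop := ∀ (n : ℕ) (M : Type) [Mfe n M] (D : Exterior n M) (v : M → ℝ) (R A : ℝ), 2 ≤ n →
  Measurable v → (∀ x, v x ∈ Icc (0 : ℝ) 1) → (∀ x, D.F x < 0 → v x = 0) →
  (∀ x, R < ‖px x‖ → v x = 1) →
  (∀ X, D.TestField X → ∫ x, v x * dv D.g X x * dens D.g x ≤ A) → D.Amin ≤ ENNReal.ofReal A

/-- MM: the lower bound is sharp in the class of the fields which agree with `N` outside the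
sphere of radius `R`; `N` is the unit normal of the spheres in a collar. -/
def MM : Prop := ∀ (n : ℕ) (M : Type) [Mfe n M] (D : Exterior n M) (R A : ℝ)
  (N : Fin n → M → ℝ), 2 ≤ n → R0 M + 1 ≤ R → (∀ x, R - 1 ≤ ‖px x‖ → 0 < D.F x) → CV ∞ N →
  (∀ x, R - 1 ≤ ‖px x‖ → ‖px x‖ ≤ R → ∀ i, N i x = nrm D.g rq i x) →
  ENNReal.ofReal A < D.Amin → ∃ Y, CV ∞ Y ∧ (∀ x, R ≤ ‖px x‖ → ∀ i, Y i x = N i x) ∧
    (∀ x ∈ Ins D R, sq D.g x (fun i => Y i x) ≤ 1) ∧ A < Lf D R Y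

/-- DOM: a linear functional which is dominated by the integral of the positive part is given by a
function with values in `[0, 1]`. -/
def DOM : Prop := ∀ (X : Type) [MeasurableSpace X] (μ : Measure X) [IsFiniteMeasure μ]
  (C : Type) (j : C → X → ℝ) (k : C → ℝ), (∀ c, MemLp (j c) 2 μ) →
  (∀ c c' (a b : ℝ), 0 ≤ a → 0 ≤ b → a + b = 1 → ∃ c'',
    (∀ᵐ x ∂μ, j c'' x = a * j c x + b * j c' x) ∧ a * k c + b * k c' ≤ k c'') →
  (∀ c, k c ≤ ∫ x, max (j c x) 0 ∂μ) →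
  ∃ v : X → ℝ, Measurable v ∧ (∀ x, v x ∈ Icc (0 : ℝ) 1) ∧ ∀ c, k c ≤ ∫ x, v x * j c x ∂μ

end Vale.Agent.P366MM
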