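import Vale.Agent.P366MM.Defs
import Mathlib.Analysis.LocallyConvex.Separation
import Mathlib.MeasureTheory.Function.L2Space
import Mathlib.MeasureTheory.Function.AEEqOfIntegral
import Mathlib.Analysis.InnerProductSpace.Dual

/-!
# P366MM: the dominated functional
-/

open MeasureTheory Set Filter Topology

noncomputable section

namespace Vale.Agent.P366MM

variable {X : Type} [MeasurableSpace X] {μ : Measure X} [IsFiniteMeasure μ]

/-- the integral of the positive part -/
def pp (f : Lp ℝ 2 μ) : ℝ := ∫ x, max (f x) 0 ∂μ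

theorem int_Lp (f : Lp ℝ 2 μ) : Integrable f μ := (Lp.memLp f).integrable one_le_two

theorem int_pp (f : Lp ℝ 2 μ) : Integrable (fun x => max (f x) 0) μ := (int_Lp f).pos_part

theorem cont_pp : Continuous (pp : Lp ℝ 2 μ → ℝ) := by
  have e : (pp : Lp ℝ 2 μ → ℝ) = fun f => inner ℝ (indicatorConstLp 2 MeasurableSet.univ
      (measure_ne_top μ univ) (1 : ℝ)) (Lp.posPart f) := funext fun f => by
    rw [L2.inner_indicatorConstLp_one, Measure.restrict_univ]
    exact (integral_congr_ae (Lp.coeFn_posPart f)).symm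
  rw [e]
  exact continuous_const.inner Lp.continuous_posPart

omit [IsFiniteMeasure μ] in
theorem pp_smul {a : ℝ} (ha : 0 ≤ a) (f : Lp ℝ 2 μ) : pp (a • f) = a * pp f := by
  rw [pp, pp, ← integral_const_mul]
  refine integral_congr_ae ((Lp.coeFn_smul a f).mono fun x hx => ?_)
  simp only [hx, Pi.smul_apply, smul_eq_mul, mul_max_of_nonneg _ _ ha, mul_zero]

theorem pp_add (f g : Lp ℝ 2 μ) : pp (f + g) ≤ pp f + pp g := by
  rw [pp, pp, pp, ← integral_add (int_pp f) (int_pp g)]
  refine integral_mono_ae (int_pp _) ((int_pp f).add (int_pp g))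
    ((Lp.coeFn_add f g).mono fun x hx => ?_)
  simp only [hx, Pi.add_apply]
  exact max_le (add_le_add (le_max_left _ _) (le_max_left _ _))
    (add_nonneg (le_max_right _ _) (le_max_right _ _))

/-- a linear functional below `pp` -/
theorem repr_pp (l : StrongDual ℝ (Lp ℝ 2 μ)) (h : ∀ f, l f ≤ pp f) :
    ∃ v : X → ℝ, Measurable v ∧ (∀ x, v x ∈ Icc (0 : ℝ) 1) ∧ ∀ f, l f = ∫ x, v x * f x ∂μ := by
  obtain ⟨w, hw⟩ : ∃ w : Lp ℝ 2 μ, ∀ f, l f = inner ℝ w f :=
    ⟨(InnerProductSpace.toDual ℝ (Lp ℝ 2 μ)).symm l, fun f =>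
      (InnerProductSpace.toDual_symm_apply).symm⟩
  have k : ∀ s (hs : MeasurableSet s), l (indicatorConstLp 2 hs (measure_ne_top μ s) (1 : ℝ)) =
      ∫ x in s, w x ∂μ := fun s hs => by
    rw [hw, real_inner_comm, L2.inner_indicatorConstLp_one]
  have h0 : 0 ≤ᵐ[μ] w := ae_nonneg_of_forall_setIntegral_nonneg (int_Lp w) fun s hs _ => by
    have h1 := h (-indicatorConstLp 2 hs (measure_ne_top μ s) (1 : ℝ))
    have h2 : pp (-indicatorConstLp 2 hs (measure_ne_top μ s) (1 : ℝ)) = 0 := by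
      refine integral_eq_zero_of_ae ?_
      filter_upwards [Lp.coeFn_neg (indicatorConstLp 2 hs (measure_ne_top μ s) (1 : ℝ)),
        indicatorConstLp_coeFn (p := 2) (hs := hs) (hμs := measure_ne_top μ s) (c := (1 : ℝ))]
        with x a b
      rw [a, Pi.neg_apply, b]
      by_cases hx : x ∈ s <;> simp [hx]
    rw [map_neg, k, h2] at h1
    linarith
  have h1 : w ≤ᵐ[μ] fun _ => (1 : ℝ) :=
    ae_le_of_forall_setIntegral_le (int_Lp w) (integrable_const 1) fun s hs _ => by
      have h1 := h (indicatorConstLp 2 hs (measure_ne_top μ s) (1 : ℝ))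
      rw [k] at h1
      refine h1.trans_eq ?_
      rw [← integral_indicator hs]
      refine integral_congr_ae ?_
      filter_upwards [indicatorConstLp_coeFn (p := 2) (hs := hs) (hμs := measure_ne_top μ s)
        (c := (1 : ℝ))] with x b
      rw [b]
      by_cases hx : x ∈ s <;> simp [hx]
  refine ⟨fun x => max 0 (min 1 (w x)), measurable_const.max (measurable_const.min
    (Lp.stronglyMeasurable w).measurable), fun x => ⟨le_max_left _ _,
      max_le zero_le_one (min_le_left _ _)⟩, fun f => ?_⟩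
  rw [hw, L2.inner_def]
  refine integral_congr_ae ?_
  filter_upwards [h0, h1] with x a b
  rw [min_eq_right b, max_eq_right (show (0 : ℝ) ≤ w x from a)]
  simp [mul_comm]

theorem dom : DOM := by
  intro X _ μ _ C j k hj hc hk
  rcases isEmpty_or_nonempty C with hC | ⟨⟨c₀⟩⟩
  · exact ⟨fun _ => 0, measurable_const, fun _ => ⟨le_rfl, zero_le_one⟩, fun c => hC.elim c⟩
  have e : ∀ c, pp ((hj c).toLp (j c)) = ∫ x, max (j c x) 0 ∂μ := fun c =>
    integral_congr_ae ((hj c).coeFn_toLp.mono fun x hx => by simp only [hx])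
  obtain ⟨φ, u, h1, h2⟩ := geometric_hahn_banach_open (E := Lp ℝ 2 μ × ℝ)
    (s := {q | pp q.1 < q.2}) (t := {q | ∃ c, q.1 = (hj c).toLp (j c) ∧ q.2 ≤ k c})
    (fun p hp q hq a b ha hb hab => by
      have h := pp_add (a • p.1) (b • q.1)
      rw [pp_smul ha, pp_smul hb] at h
      refine h.trans_lt ?_
      have hp' : pp p.1 < p.2 := hp
      have hq' : pp q.1 < q.2 := hq
      show _ < a * p.2 + b * q.2
      rcases ha.eq_or_lt with rfl | ha'
      · rw [zero_add] at hab
        simpa [hab] using hq'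
      · nlinarith [mul_pos ha' (sub_pos.2 hp'), mul_nonneg hb (sub_pos.2 hq').le])
    (isOpen_lt (cont_pp.comp continuous_fst) continuous_snd)
    (by
      rintro p ⟨c, p1, p2⟩ q ⟨c', q1, q2⟩ a b ha hb hab
      obtain ⟨c'', r1, r2⟩ := hc c c' a b ha hb hab
      refine ⟨c'', Lp.ext ?_, le_trans ?_ r2⟩
      · filter_upwards [Lp.coeFn_add (a • p.1) (b • q.1), Lp.coeFn_smul a p.1, Lp.coeFn_smul b q.1,
          (hj c).coeFn_toLp, (hj c').coeFn_toLp, (hj c'').coeFn_toLp, r1] with x s1 s2 s3 s4 s5 s6 s7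
        change (a • p.1 + b • q.1 : Lp ℝ 2 μ) x = _
        rw [s1, Pi.add_apply, s2, s3, s6, s7, Pi.smul_apply, Pi.smul_apply, p1, q1, s4, s5]
        rfl
      · exact add_le_add (mul_le_mul_of_nonneg_left p2 ha) (mul_le_mul_of_nonneg_left q2 hb))
    (disjoint_left.2 (by
      rintro q hq ⟨c, q1, q2⟩
      have hq' : pp q.1 < q.2 := hq
      rw [q1, e] at hq'
      linarith [hk c]))
  obtain ⟨a, ha⟩ : ∃ a, a = φ (0, 1) := ⟨_, rfl⟩
  have sp : ∀ f t, φ (f, t) = φ (f, 0) + t * a := fun f t => by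
    rw [ha, ← smul_eq_mul, ← map_smul, ← map_add]
    simp
  have p0 : pp (0 : Lp ℝ 2 μ) = 0 := by simpa using pp_smul le_rfl (0 : Lp ℝ 2 μ)
  have sc : ∀ f t, pp f < t → φ (f, t) ≤ 0 := fun f t h => by
    by_contra! k
    have h3 := h1 (((|u| + 1) / φ (f, t)) • (f, t)) (by
      have : 0 < (|u| + 1) / φ (f, t) := by positivity
      show pp (_ • f) < _ * t
      rw [pp_smul this.le]
      exact mul_lt_mul_of_pos_left h this)
    rw [map_smul, smul_eq_mul, div_mul_cancel₀ _ k.ne'] at h3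
    linarith [le_abs_self u]
  have u0 : 0 ≤ u := by
    by_contra! k
    have h3 := h1 (0, u / (a - 1 - |a|)) (by
      show pp 0 < _
      rw [p0]
      exact div_pos_of_neg_of_neg k (by linarith [le_abs_self a]))
    have h4 : a - 1 - |a| < 0 := by linarith [le_abs_self a]
    rw [sp, show ((0 : Lp ℝ 2 μ), (0 : ℝ)) = 0 from rfl, map_zero, zero_add, div_mul_eq_mul_div,
      div_lt_iff_of_neg h4] at h3
    nlinarith [abs_nonneg a]
  have a0 : a < 0 := by
    have h3 := h1 ((hj c₀).toLp (j c₀), pp ((hj c₀).toLp (j c₀)) + 1)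
      (lt_add_one (pp ((hj c₀).toLp (j c₀))))
    have h4 := h2 ((hj c₀).toLp (j c₀), k c₀) ⟨c₀, rfl, le_rfl⟩
    have h5 := hk c₀
    rw [← e] at h5
    rw [sp] at h3 h4
    nlinarith
  obtain ⟨v, v1, v2, v3⟩ := repr_pp ((-a)⁻¹ • φ.comp (ContinuousLinearMap.inl ℝ _ ℝ)) fun f => by
    refine le_of_forall_gt_imp_ge_of_dense fun t ht => ?_
    have h3 := sc f t ht
    rw [sp] at h3
    show (-a)⁻¹ * φ (f, 0) ≤ t
    rw [inv_mul_le_iff₀ (neg_pos.2 a0)]
    linarith
  refine ⟨v, v1, v2, fun c => ?_⟩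
  have h3 := h2 ((hj c).toLp (j c), k c) ⟨c, rfl, le_rfl⟩
  have h4 := v3 ((hj c).toLp (j c))
  rw [sp] at h3
  refine le_trans ?_ (h4.le.trans_eq (integral_congr_ae
    ((hj c).coeFn_toLp.mono fun x hx => by simp only [hx])))
  show k c ≤ (-a)⁻¹ * φ ((hj c).toLp (j c), 0)
  rw [le_inv_mul_iff₀ (neg_pos.2 a0)]
  linarith

end Vale.Agent.P366MM
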