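import Vale.Agent.P366MM.Lb
import Vale.Agent.P366MM.Dom

/-!
# P366MM: the sharp lower bound from the coarea step
-/

open MeasureTheory Set Filter Topology
open scoped ContDiff
open Vale.Agent.P366M
open Vale.Agent.P366Z.Lk (th th' sm_th hd_th th'_nonneg th_one th_ev)

noncomputable section

namespace Vale.Agent.P366MM

variable {n : ℕ} {M : Type} [Mfe n M] {g : Fld n M} {X Y Z : Fin n → M → ℝ} {R : ℝ}

theorem sq_conv (hg : Met g) (x : M) {X Y : Fin n → ℝ} {a b : ℝ} (ha : 0 ≤ a) (hb : 0 ≤ b)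
    (hab : a + b = 1) (hX : sq g x X ≤ 1) (hY : sq g x Y ≤ 1) :
    sq g x (fun i => a * X i + b * Y i) ≤ 1 := by
  have h0 : 0 ≤ sq g x fun i => X i - Y i := hg.g_nonneg x _
  have e : sq g x (fun i => a * X i + b * Y i) =
      a * sq g x X + b * sq g x Y - a * b * sq g x fun i => X i - Y i := by
    obtain rfl : b = 1 - a := by linarith
    simp only [sq, Finset.mul_sum, ← Finset.sum_add_distrib, ← Finset.sum_sub_distrib]
    exact Finset.sum_congr rfl fun i _ => Finset.sum_congr rfl fun j _ => by ring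
  nlinarith [mul_nonneg (mul_nonneg ha hb) h0, mul_nonneg ha (sub_nonneg.2 hX),
    mul_nonneg hb (sub_nonneg.2 hY)]

/-- the inequality of Cauchy and Schwarz -/
theorem cs (hg : Met g) (x : M) (ξ X : Fin n → ℝ) (hX : sq g x X ≤ 1) :
    |∑ i, ξ i * X i| ≤ √(∑ i, ∑ j, up g i j x * ξ i * ξ j) := by
  have h1 := hg.up_cs x ξ fun j => ∑ k, g x j k * X k
  have h3 : ∀ b : Fin n → ℝ, ∑ i, ∑ j, up g i j x * b i * ∑ k, g x j k * X k = ∑ i, b i * X i :=
    fun b => Finset.sum_congr rfl fun i _ => by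
      rw [← hg.up_g_mul x i X, Finset.mul_sum]
      exact Finset.sum_congr rfl fun j _ => by ring
  have h4 : ∑ i, (∑ k, g x i k * X k) * X i = sq g x X :=
    Finset.sum_congr rfl fun i _ => by
      rw [Finset.sum_mul]
      exact Finset.sum_congr rfl fun j _ => by ring
  rw [h3, h3, h4] at h1
  exact Real.abs_le_sqrt (h1.trans (mul_le_of_le_one_right (hg.up_nonneg x ξ) hX))

theorem sq_gr (hg : Met g) (u : M → ℝ) (x : M) : sq g x (fun i => gr g u i x) = ip g u u x := by
  rw [ip_eq_gr]
  refine Finset.sum_congr rfl fun i _ => ?_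
  rw [← hg.g_up_mul x i fun l => pd l u x, Finset.sum_mul]
  exact Finset.sum_congr rfl fun j _ => by unfold gr; ring

theorem nrm_eq (u : M → ℝ) (i : Fin n) (x : M) : nrm g u i x = (gn g u x)⁻¹ * gr g u i x :=
  div_eq_inv_mul _ _

theorem sq_nrm (hg : Met g) (u : M → ℝ) (x : M) : sq g x (fun i => nrm g u i x) ≤ 1 := by
  simp only [nrm_eq]
  rw [sq_smul, sq_gr hg, ← hg.gn_sq, ← mul_pow]
  exact pow_le_one₀ (mul_nonneg (inv_nonneg.2 (gn_nonneg _ _ _)) (gn_nonneg _ _ _))
    inv_mul_le_one

theorem dot_nrm (u : M → ℝ) (x : M) : ∑ i, pd i u x * nrm g u i x = gn g u x := by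
  simp only [nrm_eq, mul_left_comm _ (gn g u x)⁻¹, ← Finset.mul_sum]
  rw [← ip_eq_gr, inv_mul_eq_div]
  exact Real.div_sqrt

theorem fx_lin (hg : Met g) (hR : 0 < R) (hX : CV ∞ X) (hY : CV ∞ Y) (a b : ℝ) :
    fx g R (fun i x => a * X i x + b * Y i x) = a * fx g R X + b * fx g R Y := by
  have h1 : CV ∞ fun i x => a * X i x := CV.smul cd_const hX
  have h2 : CV ∞ fun i x => b * Y i x := CV.smul cd_const hY
  have i : ∀ {Z : Fin n → M → ℝ}, CV ∞ Z → IntegrableOn (fun x => dv g Z x * dens g x)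
      {x : M | ‖px x‖ ≤ R} := fun h =>
    (cont_dvd hg h).continuousOn.integrableOn_compact (isCompact_px M R)
  rw [fx_eq hg hR (h1.add h2), fx_eq hg hR hX, fx_eq hg hR hY, ← integral_const_mul,
    ← integral_const_mul, ← integral_add ((i hX).const_mul a) ((i hY).const_mul b)]
  refine integral_congr_ae (.of_forall fun x => ?_)
  simp only [hg.dv_add (h1.dv (by simp) x) (h2.dv (by simp) x), dv_const_mul]
  ring

theorem test_lin (D : Exterior n M) (hX : D.TestField X) (hY : D.TestField Y) {a b : ℝ}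
    (ha : 0 ≤ a) (hb : 0 ≤ b) (hab : a + b = 1) :
    D.TestField fun i x => a * X i x + b * Y i x := by
  obtain ⟨h1, ⟨R1, h2⟩, h3⟩ := hX
  obtain ⟨k1, ⟨R2, k2⟩, k3⟩ := hY
  refine ⟨(CV.smul cd_const h1).add (CV.smul cd_const k1), ⟨max R1 R2, fun x hx i => ?_⟩,
    fun x hx => sq_conv D.met x ha hb hab (h3 x hx) (k3 x hx)⟩
  simp [h2 x ((le_max_left _ _).trans_lt hx), k2 x ((le_max_right _ _).trans_lt hx)]

theorem test_neg (D : Exterior n M) (hX : D.TestField X) : D.TestField fun i x => -1 * X i x := by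
  obtain ⟨h1, ⟨R1, h2⟩, h3⟩ := hX
  refine ⟨CV.smul cd_const h1, ⟨R1, fun x hx i => by simp only [h2 x hx, mul_zero]⟩, fun x hx => ?_⟩
  change sq D.g x (fun i => -1 * X i x) ≤ 1
  rw [sq_smul, neg_one_sq, one_mul]
  exact h3 x hx

/-- the sharp lower bound in the class of the test fields -/
theorem exists_test (hc : CO) (D : Exterior n M) {A : ℝ} (hn : 2 ≤ n) (hR : 0 < R)
    (hF : ∀ x, R < ‖px x‖ → 0 < D.F x) (hA : ENNReal.ofReal A < D.Amin) :
    ∃ Y, D.TestField Y ∧ A < Lf D R Y := by
  classical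
  by_contra! h
  have hK := cpt_ins D R
  have mK := meas_ins D R
  have : IsFiniteMeasure (volume.restrict (Ins D R)) := ⟨by simpa using hK.measure_lt_top⟩
  obtain ⟨v, v1, v2, v3⟩ := dom M (volume.restrict (Ins D R)) {Y // D.TestField Y}
    (fun Y x => dv D.g Y.1 x * dens D.g x) (fun Y => fx D.g R Y.1 - A)
    (fun Y => by
      obtain ⟨C, hC⟩ := hK.exists_bound_of_continuousOn (cont_dvd D.met Y.2.1).continuousOn
      exact MemLp.of_bound (cont_dvd D.met Y.2.1).aestronglyMeasurable C
        ((ae_restrict_mem mK).mono hC))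
    (fun X Y a b ha hb hab => ⟨⟨_, test_lin D X.2 Y.2 ha hb hab⟩, .of_forall fun x => by
      simp only [D.met.dv_add ((CV.smul cd_const X.2.1).dv (by simp) x)
        ((CV.smul cd_const Y.2.1).dv (by simp) x), dv_const_mul]
      ring, by
      simp only [fx_lin D.met hR X.2.1 Y.2.1]
      linear_combination (-A) * hab⟩)
    fun Y => by
      have := h Y.1 Y.2
      simp only [Lf, max_mul_of_nonneg _ _ (dens_nonneg _ _), zero_mul] at this
      linarith
  refine hA.not_ge (hc n M D (fun x => if R < ‖px x‖ then 1 else (Ins D R).indicator v x) R A hn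
    (Measurable.ite (meas_lt_px R) measurable_const (v1.indicator mK)) (fun x => ?_)
    (fun x hx => ?_) (fun x hx => if_pos hx) fun X hX => ?_)
  · simp only [indicator]
    split_ifs
    exacts [⟨zero_le_one, le_rfl⟩, v2 x, ⟨le_rfl, zero_le_one⟩]
  · rw [if_neg fun k => (hF x k).not_gt hx, indicator_of_notMem fun k => hx.not_ge k.1]
  · have h1 := v3 ⟨_, test_neg D hX⟩
    obtain ⟨hX, ⟨ρ, hρ⟩, -⟩ := id hX
    have i1 := int_dvd D.met hX hρ
    have i2 : Integrable fun x => v x * (dv D.g X x * dens D.g x) :=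
      i1.bdd_mul (c := 1) v1.aestronglyMeasurable (.of_forall fun x => by
        rw [Real.norm_of_nonneg (v2 x).1]; exact (v2 x).2)
    have h2 := integral_compl_dvd D.met hX hρ (meas_lt_px R)
    rw [show {x : M | R < ‖px x‖}ᶜ = {x : M | ‖px x‖ ≤ R} from Set.ext fun x => not_lt (a := R)]
      at h2
    simp only [neg_mul, one_mul, fx_eq D.met hR hX.neg, dv_neg, mul_neg, integral_neg, h2] at h1
    have e : ∫ x, (if R < ‖px x‖ then 1 else (Ins D R).indicator v x) * dv D.g X x * dens D.g x =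
        (∫ x in {x : M | R < ‖px x‖}, dv D.g X x * dens D.g x) +
          ∫ x in Ins D R, v x * (dv D.g X x * dens D.g x) := by
      rw [← integral_indicator mK, ← integral_indicator (meas_lt_px R),
        ← integral_add (i1.indicator (meas_lt_px R)) (i2.indicator mK)]
      refine integral_congr_ae (.of_forall fun x => ?_)
      by_cases hx : R < ‖px x‖
      · have : x ∉ Ins D R := fun k => hx.not_ge k.2
        simp [hx, this]
      · by_cases hx' : x ∈ Ins D R <;> simp [hx, hx', mul_assoc]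
    rw [e]
    linarith

theorem ae_ne (hR : R0 M ≤ R) : ∀ᵐ x : M, ‖px x‖ ≠ R := by
  filter_upwards [(contDiff_normSq (M := M)).llip.ae_pd_zero (R ^ 2)] with x hx h
  refine px_ne (x := x) (h ▸ hR) ?_
  ext i
  have := hx (by rw [h]) i
  rw [pd_normSq (h ▸ hR)] at this
  simpa using this

theorem mm_of (hc : CO) : MM := by
  intro n M _ D R A N hn hR hF hN hNn hA
  have r8 := R0_ge M
  have hR0 : 0 < R := by linarith
  obtain ⟨Y, ⟨hY, -, hY1⟩, hL⟩ := exists_test hc D hn hR0 (fun x hx => hF x (by linarith)) hA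
  have hK := cpt_ins D R
  have mK := meas_ins D R
  have hq : Smooth (rq : M → ℝ) := contDiff_normSq
  obtain ⟨η, hη⟩ : ∃ η : ℕ → M → ℝ, η = fun k x => th k (rq x - R ^ 2) := ⟨_, rfl⟩
  have e0 : ∀ k, Smooth (η k) := fun k => hη ▸ (sm_th k).compM (CD.sub hq cd_const)
  have e1 : ∀ k x, 0 ≤ η k x := fun k x => hη ▸ Real.smoothTransition.nonneg _
  have e2 : ∀ k x, η k x ≤ 1 := fun k x => hη ▸ Real.smoothTransition.le_one _
  have e3 : ∀ k x, ‖px x‖ < R - 1 → η k x = 0 := fun k x hx => hη ▸
    Real.smoothTransition.zero_of_nonpos (by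
      have h1 : rq x - R ^ 2 ≤ -1 := by
        unfold rq
        nlinarith [norm_nonneg (px x)]
      nlinarith [Nat.cast_nonneg (α := ℝ) k])
  have hd : CV ∞ fun i x => N i x - Y i x := hN.sub hY
  have c1 : Continuous fun x => 2 * |dv D.g (fun i x => N i x - Y i x) x| * dens D.g x :=
    (continuous_const.mul (D.met.sm_dv hd).cont.abs).mul D.met.sm_dens.cont
  have i1 := c1.continuousOn.integrableOn_compact (μ := volume) hK
  have i2 : ∀ k, IntegrableOn (fun x => η k x *
      (2 * |dv D.g (fun i x => N i x - Y i x) x| * dens D.g x)) (Ins D R) := fun k =>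
    ((e0 k).cont.mul c1).continuousOn.integrableOn_compact hK
  have ht : Tendsto (fun k => ∫ x in Ins D R, η k x *
      (2 * |dv D.g (fun i x => N i x - Y i x) x| * dens D.g x)) atTop
      (𝓝 (∫ _ in Ins D R, (0 : ℝ))) := by
    refine tendsto_integral_of_dominated_convergence _ (fun k => (i2 k).1) i1.norm
      (fun k => .of_forall fun x => ?_) ?_
    · rw [norm_mul]
      exact mul_le_of_le_one_left (norm_nonneg _) ((abs_of_nonneg (e1 k x)).trans_le (e2 k x))
    · filter_upwards [ae_restrict_of_ae (ae_ne (M := M) (R := R) (by linarith)),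
        ae_restrict_mem mK] with x h1 h2
      have h3 : rq x - R ^ 2 < 0 := by
        unfold rq
        nlinarith [norm_nonneg (px x), lt_of_le_of_ne h2.2 h1]
      exact tendsto_const_nhds.congr' ((th_ev h3).mono fun k hk => by simp only [hη, hk, zero_mul])
  rw [integral_zero] at ht
  obtain ⟨k, hk⟩ := (ht.eventually (gt_mem_nhds (sub_pos.2 hL))).exists
  have hT : CV ∞ fun i x => η k x * (N i x - Y i x) := CV.smul (e0 k) hd
  have hW : CV ∞ fun i x => 1 * Y i x + 1 * (η k x * (N i x - Y i x)) :=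
    (CV.smul cd_const hY).add (CV.smul cd_const hT)
  refine ⟨_, hW, fun x hx i => ?_, fun x hx => ?_, ?_⟩
  · have : η k x = 1 := hη ▸ th_one k (by unfold rq; nlinarith)
    simp [this]
  · by_cases h : ‖px x‖ < R - 1
    · simpa [e3 k x h, sq] using hY1 x hx.1
    · have := sq_conv D.met x (sub_nonneg.2 (e2 k x)) (e1 k x) (sub_add_cancel _ _) (hY1 x hx.1)
        (sq_nrm D.met rq x)
      refine le_trans (le_of_eq (congrArg _ (funext fun i => ?_))) this
      rw [hNn x (not_lt.1 h) hx.2]
      ring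
  · have f1 : fx D.g R (fun i x => η k x * (N i x - Y i x)) =
        ∫ x in Ins D R, dv D.g (fun i x => η k x * (N i x - Y i x)) x * dens D.g x := by
      rw [fx_eq D.met hR0 hT]
      refine setIntegral_eq_of_subset_of_forall_diff_eq_zero (meas_px_le R) (fun _ h => h.2)
        fun x hx => ?_
      have h1 : ‖px x‖ < R - 1 := not_le.1 fun l => hx.2 ⟨(hF x l).le, hx.1⟩
      rw [dv_congr (Y := fun i y => 0 * Y i y) fun i => (ev_px_lt h1).mono fun z hz => by
        simp only [e3 k z hz, zero_mul], dv_const_mul, zero_mul, zero_mul]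
    have i3 : ∀ {Z : Fin n → M → ℝ}, CV ∞ Z → IntegrableOn
        (fun x => max (dv D.g Z x) 0 * dens D.g x) (Ins D R) := fun h =>
      (((D.met.sm_dv h).cont.max continuous_const).mul
        D.met.sm_dens.cont).continuousOn.integrableOn_compact hK
    have i4 := (cont_dvd D.met hT).continuousOn.integrableOn_compact (μ := volume) hK
    have f2 := setIntegral_mono_on (i3 hW) (((i3 hY).add (i2 k)).add i4) mK fun x hx => by
      have h0 : 0 ≤ ∑ i, pd i (η k) x * (N i x - Y i x) := by
        by_cases h : ‖px x‖ < R - 1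
        · simp [pd_of_isLocalMin (.of_forall fun y => (e3 k x h).trans_le (e1 k y))]
        · have h1 : ∀ i, pd i (η k) x = th' k (rq x - R ^ 2) * pd i rq x := fun i => by
            rw [hη, pd_comp (f := fun x => rq x - R ^ 2) (hd_th k _) ((hq.diff x).sub_const _),
              pd_sub_const]
          have h2 := (le_abs_self _).trans (cs D.met x (fun i => pd i rq x) _ (hY1 x hx.1))
          simp only [h1, mul_assoc, ← Finset.mul_sum]
          simp only [hNn x (not_lt.1 h) hx.2, mul_sub, Finset.sum_sub_distrib, dot_nrm]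
          exact sub_nonneg.2 (mul_le_mul_of_nonneg_left h2 (th'_nonneg _ _))
      simp only [Pi.add_apply, one_mul, D.met.dv_add (hY.dv (by simp) x) (hT.dv (by simp) x),
        D.met.dv_smul ((e0 k).diff x) (hd.dv (by simp) x)]
      rw [← mul_assoc, ← add_mul, ← add_mul]
      refine mul_le_mul_of_nonneg_right (max_le ?_ ?_) (dens_nonneg _ _)
      · nlinarith [le_max_left (dv D.g Y x) 0, mul_nonneg (e1 k x)
          (abs_nonneg (dv D.g (fun i x => N i x - Y i x) x))]
      · nlinarith [le_max_right (dv D.g Y x) 0, mul_nonneg (e1 k x)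
          (abs_nonneg (dv D.g (fun i x => N i x - Y i x) x)), mul_nonneg (e1 k x)
          (sub_nonneg.2 (neg_abs_le (dv D.g (fun i x => N i x - Y i x) x)))]
    rw [integral_add' ((i3 hY).add (i2 k)) i4, integral_add' (i3 hY) (i2 k)] at f2
    unfold Lf at hk ⊢
    rw [fx_lin D.met hR0 hY hT, f1]
    linarith

end Vale.Agent.P366MM
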