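import Vale.Agent.P366MM.CoE
import Vale.Agent.P366MM.Mm
import Vale.Agent.P366M.Apx
import Vale.Agent.P366M.Sard

/-!
# P366MM: the coarea step
-/

open MeasureTheory Metric Set Filter Topology
open scoped ContDiff
open Vale.Agent.P366M
open Vale.Agent.P366.Stmt (E)

noncomputable section

namespace Vale.Agent.P366MM

variable {n : ℕ} {M : Type} [Mfe n M] {g : Fld n M} {e : Ch n M} {B : Set (E n)}
  {X' : Fin n → E n → ℝ} {F v χ u : M → ℝ} {η : ℝ}

/-- the extension by zero of a vector field from the chart `e` -/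
def zv (e : Ch n M) (X' : Fin n → E n → ℝ) : Fin n → M → ℝ := fun i =>
  zx e fun y => ∑ k, J e y i k * X' k y

theorem repV_zv (he : e ∈ At M) (X' : Fin n → E n → ℝ) : repV e (zv e X') = X' := by
  funext i y
  have h : (fun k => zv e X' k (e.symm y)) = (J e y).mulVec fun k => X' k y :=
    funext fun k => zx_symm he _ y
  have h1 := repV_eq e (zv e X') y
  rw [h, Matrix.mulVec_mulVec, J_inv_mul he, Matrix.one_mulVec] at h1
  exact congrFun h1 i

theorem zv_zero (h : ∀ y ∉ B, ∀ i, X' i y = 0) (x : M) (hx : x ∉ e.symm '' B) (i : Fin n) :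
    zv e X' i x = 0 := zx_zero (fun y hy => by simp [h y hy]) hx

theorem cv_zv (he : e ∈ At M) (hB : IsCompact B) (h : ∀ y ∉ B, ∀ i, X' i y = 0)
    (hX : ∀ i, ContDiff ℝ ∞ (X' i)) : CV ∞ (zv e X') := cv_of le_rfl fun x => by
  by_cases hx : x ∈ e.symm '' B
  · exact ⟨e, he, image_sub he B hx, fun i => by rw [repV_zv he]; exact (hX i).contDiffAt⟩
  · refine ⟨ch x, ch_mem x, mem_ch x, fun i => ?_⟩
    refine (cv_zero (m := ∞) _ (ch_mem x) i).contDiffAt.congr_of_eventuallyEq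
      (repV_congr_pt (fun j => ?_) i)
    exact Eventually.mono ((cpt_image he hB).isClosed.isOpen_compl.mem_nhds hx) fun z hz =>
      zv_zero h z hz j

/-- the direction of the shift -/
theorem shift (hF : Smooth F) (hr : ∀ x, F x = 0 → ∃ i, pd i F x ≠ 0) (p : M) :
    ∃ r > (0 : ℝ), ∃ a : E n, ∀ ε > (0 : ℝ), ∀ y ∈ ball (pt p) r, ∀ y' ∈ ball (pt p) r,
      ‖y - y' - ε • a‖ ≤ ε → F ((ch p).symm y) ≤ 0 → F ((ch p).symm y') < 0 := by
  have hc : ContinuousAt (loc (ch p) F) (pt p) := (hF _ (ch_mem p)).continuous.continuousAt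
  rcases lt_trichotomy (F p) 0 with h | h | h
  · obtain ⟨r, r0, hr⟩ := Metric.eventually_nhds_iff.1 (hc.eventually_lt continuousAt_const
      (show loc (ch p) F (pt p) < 0 by rwa [loc_pt]))
    exact ⟨r, r0, 0, fun _ _ _ _ y' hy' _ _ => hr hy'⟩
  · obtain ⟨i, hi⟩ := hr p h
    rw [pd_eq (hF.diff p)] at hi
    have hd : HasStrictFDerivAt (loc (ch p) F) (fd F p) (pt p) :=
      (hF _ (ch_mem p)).contDiffAt.hasStrictFDerivAt (by simp)
    obtain ⟨a, ha⟩ : ∃ a : E n, fd F p a = ‖fd F p‖ + 1 :=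
      ⟨((‖fd F p‖ + 1) / fd F p (EuclideanSpace.single i 1)) • EuclideanSpace.single i 1, by
        rw [map_smul, smul_eq_mul, div_mul_cancel₀ _ hi]⟩
    have a0 : 0 < ‖a‖ + 1 := by positivity
    have h1 := hd.isLittleO.def (c := 1 / (2 * (‖a‖ + 1))) (by positivity)
    obtain ⟨r, r0, hr⟩ := Metric.eventually_nhds_iff.1 h1
    refine ⟨r, r0, a, fun ε hε y hy y' hy' h2 h3 => ?_⟩
    have h4 := (neg_le_abs _).trans (hr (y := (y, y')) (max_lt hy hy'))
    have h5 : ‖y - y'‖ ≤ ε * (‖a‖ + 1) := by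
      have := norm_sub_norm_le (y - y') (ε • a)
      rw [norm_smul, Real.norm_of_nonneg hε.le] at this
      linarith
    have h6 : 1 / (2 * (‖a‖ + 1)) * ‖y - y'‖ ≤ ε / 2 :=
      (mul_le_mul_of_nonneg_left h5 (by positivity)).trans_eq (by field_simp)
    have h7 := (neg_le_abs _).trans ((fd F p).le_of_opNorm_le_of_le le_rfl h2)
    rw [map_sub, map_smul, ha, smul_eq_mul] at h7
    simp only [loc_apply] at h4
    linarith
  · obtain ⟨r, r0, hr⟩ := Metric.eventually_nhds_iff.1 (continuousAt_const.eventually_lt hc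
      (show 0 < loc (ch p) F (pt p) by rwa [loc_pt]))
    exact ⟨r, r0, 0, fun _ _ y hy _ _ _ h => absurd (hr hy) h.not_gt⟩

theorem bil_rep (he : e ∈ At M) (X Y : Fin n → M → ℝ) (y : E n) :
    bil (rep e g y) (fun i => repV e X i y) (fun i => repV e Y i y) =
      bil (g (e.symm y)) (fun i => X i (e.symm y)) fun i => Y i (e.symm y) := quad_rep he g X Y y

/-- **one piece** -/
theorem piece (hg : Met g) (he : e ∈ At M) {y₀ a : E n} {r : ℝ} (hr : 0 < r)
    (hs : ∀ ε > (0 : ℝ), ∀ y ∈ ball y₀ r, ∀ y' ∈ ball y₀ r, ‖y - y' - ε • a‖ ≤ ε →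
      F (e.symm y) ≤ 0 → F (e.symm y') < 0) (hχ : Smooth χ) (χ0 : ∀ x, 0 ≤ χ x)
    (χs : tsupport χ ⊆ e.symm '' closedBall y₀ (r / 2)) (hv : Measurable v)
    (v1 : ∀ x, v x ∈ Icc (0 : ℝ) 1) (v0 : ∀ x, F x < 0 → v x = 0) (hη : 0 < η) :
    ∃ s, Smooth s ∧ (∀ x, 0 ≤ s x ∧ s x ≤ χ x) ∧ (∀ x, F x ≤ 0 → s x = 0) ∧
      ∀ X : Fin n → M → ℝ, CV ∞ X → (∀ x, sq g x (fun i => X i x) ≤ 1) →
        ∃ Z : Fin n → M → ℝ, CV ∞ Z ∧ (∃ R, ∀ x, R < ‖px x‖ → ∀ i, Z i x = 0) ∧
          (∀ x ζ, bil (g x) ζ (fun i => Z i x) ≤ √(sq g x ζ) * (χ x + η)) ∧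
          ∫ x, s x * dv g X x * dens g x ≤ (∫ x, v x * dv g Z x * dens g x) -
            (∫ x, v x * (∑ i, pd i χ x * X i x) * dens g x) + η := by
  have hB := isCompact_closedBall y₀ (r / 2)
  have cB : ∀ y ∉ closedBall y₀ (r / 2), loc e χ y = 0 := fun y hy =>
    image_eq_zero_of_notMem_tsupport (f := χ) fun k =>
      let ⟨z, hz, l⟩ := χs k; hy (symm_inj he l ▸ hz)
  have a0 : 0 < ‖a‖ + 1 := by positivity
  obtain ⟨ε, s, e0, e1, s0, s1, s2, s3⟩ := pieceE (hg.rep he) (hχ.lc he) (fun y => χ0 _) hB cB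
    (f := loc e v) (hv.comp (cont_symm he).measurable) (fun y => v1 _) a
    (div_pos (half_pos hr) a0) hη
  have cs0 : ∀ y ∉ closedBall y₀ (r / 2), loc e χ y * s y = 0 := fun y hy => by
    rw [cB y hy, zero_mul]
  have sy : ∀ {p : M → Prop}, (∀ x ∉ e.source, p x) → (∀ y, p (e.symm y)) → ∀ x, p x :=
    fun h1 h2 x => by
      by_cases hx : x ∈ e.source
      · exact e.left_inv hx ▸ h2 (e x)
      · exact h1 x hx
  have z0 : ∀ x ∉ e.source, zx e (fun y => loc e χ y * s y) x = 0 := fun x hx =>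
    indicator_of_notMem hx _
  refine ⟨zx e fun y => loc e χ y * s y, cd_zx le_rfl he hB cs0 ((hχ.lc he).mul s0),
    sy (fun x hx => by simp [z0 x hx, χ0]) fun y => ?_, sy (fun x hx _ => z0 x hx) fun y hy => ?_,
    fun X hX X1 => ?_⟩
  · rw [zx_symm he]
    exact ⟨mul_nonneg (χ0 _) (s1 y).1, mul_le_of_le_one_right (χ0 _) (s1 y).2⟩
  · rw [zx_symm he]
    by_cases h : y ∈ closedBall y₀ (r / 2)
    · refine mul_eq_zero_of_right _ (s2 y fun y' h' => v0 _ (hs ε e0 y
        (closedBall_subset_ball (half_lt_self hr) h) y' ?_ h' hy))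
      have h1 := norm_sub_norm_le (y - y') (ε • a)
      have h2 := dist_triangle_left y' y₀ y
      rw [norm_smul, Real.norm_of_nonneg e0.le] at h1
      rw [dist_eq_norm y y'] at h2
      rw [lt_div_iff₀ a0] at e1
      exact mem_ball.2 (by linarith [mem_closedBall.1 h])
    · exact cs0 y h
  obtain ⟨X', B', x1, x2, x3, x4, x5⟩ := s3 (repV e X) (hX e he) fun y => by
    rw [bil_rep he]; exact X1 _
  have hZ := cv_zv he x2 x3 x1
  obtain ⟨R, -, hR⟩ := bdd_px (cpt_image he x2)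
  refine ⟨zv e X', hZ, ⟨R, fun x hx => zv_zero x3 x fun k => hx.not_ge (hR x k)⟩,
    sy (fun x hx ζ => ?_) fun y ζ => ?_, ?_⟩
  · simpa [bil, zv_zero x3 x fun k => hx (image_sub he _ k)] using
      mul_nonneg (Real.sqrt_nonneg _) (add_nonneg (χ0 x) hη.le)
  · have h1 := x4 y fun i => repV e (fun i _ => ζ i) i y
    rw [bil_rep he, ← repV_zv he X', bil_rep he] at h1
    exact h1
  · rw [integral_dens_chart he g fun x hx => by rw [z0 x hx, zero_mul],
      integral_dens_chart he g fun x hx => by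
        rw [Lk.dv_zero (cpt_image he x2) (zv_zero x3) fun k => hx (image_sub he _ k), mul_zero],
      integral_dens_chart he g fun x hx => by
        simp [pd_zero_of_notMem fun k => hx (image_sub he _ (χs k))]]
    simp only [zx_symm he, ← dv_rep hg he (hX.dv (by simp) _), ← dv_rep hg he (hZ.dv (by simp) _),
      repV_zv he, dot_loc he (hχ.diff _)]
    exact x5

theorem int_v (hv : Measurable v) (v1 : ∀ x, v x ∈ Icc (0 : ℝ) 1) {a b : M → ℝ}
    (h : Integrable fun x => a x * b x) : Integrable fun x => v x * a x * b x := by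
  simp only [mul_assoc]
  exact h.bdd_mul (c := 1) hv.aestronglyMeasurable (.of_forall fun x =>
    (abs_of_nonneg (v1 x).1).trans_le (v1 x).2)

/-- **the smooth approximation** -/
theorem apx (D : Exterior n M) {R A θ : ℝ} (hv : Measurable v) (v1 : ∀ x, v x ∈ Icc (0 : ℝ) 1)
    (v0 : ∀ x, D.F x < 0 → v x = 0) (vR : ∀ x, R < ‖px x‖ → v x = 1)
    (hA : ∀ X, D.TestField X → ∫ x, v x * dv D.g X x * dens D.g x ≤ A) (hθ : 0 < θ) :
    ∃ u L, Smooth u ∧ (∀ x, u x ≤ 1) ∧ (∀ x, D.F x ≤ 0 → u x = 0) ∧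
      (∀ x, L < ‖px x‖ → u x = 1) ∧ ∀ X : Fin n → M → ℝ, CV ∞ X →
        (∀ x, L < ‖px x‖ → ∀ i, X i x = 0) → (∀ x, sq D.g x (fun i => X i x) ≤ 1) →
          ∫ x, u x * dv D.g X x * dens D.g x ≤ A + θ := by
  have hg := D.met
  obtain ⟨R1, hR1⟩ := D.dom.2.2.2
  choose r r0 a hs using shift D.dom.1 D.dom.2.1
  obtain ⟨t, χ, c1, c2, c3, c4, c5⟩ := exists_pou (isCompact_px M (max R R1))
    (fun p => (ch p).symm '' closedBall (pt p) (r p / 2))
    fun p => image_nhds p (closedBall_mem_nhds _ (half_pos (r0 p)))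
  have A0 : 0 < (t.card + 1 : ℝ) * (|A| + 1) := by positivity
  obtain ⟨η, hη, h1⟩ : ∃ η, 0 < η ∧ (t.card + 1 : ℝ) * (|A| + 1) * η = θ :=
    ⟨θ / _, div_pos hθ A0, mul_div_cancel₀ _ A0.ne'⟩
  choose s s1 s2 s3 s4 using fun p => piece hg (ch_mem p) (r0 p) (hs p) (c1 p) (c3 p) (c2 p) hv
    v1 v0 hη
  obtain ⟨L, -, hL⟩ := bdd_px (t.isCompact_biUnion fun p _ =>
    cpt_image (ch_mem p) (isCompact_closedBall (pt p) (r p / 2)))
  have χL : ∀ x, L < ‖px x‖ → ∀ p ∈ t, χ p x = 0 := fun x hx p hp =>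
    image_eq_zero_of_notMem_tsupport fun k => hx.not_ge (hL x (mem_biUnion hp (c2 p k)))
  obtain ⟨ψ, hψ⟩ : ∃ ψ : M → ℝ, ψ = fun x => 1 - ∑ p ∈ t, χ p x := ⟨_, rfl⟩
  have w1 : Smooth ψ := hψ ▸ CD.sub cd_const (CD.sum fun p _ => c1 p)
  have w2 : ∀ x, ‖px x‖ ≤ max R R1 → ψ x = 0 := fun x hx => by
    simp only [hψ, (c5 x hx).self_of_nhds, sub_self]
  refine ⟨fun x => ∑ p ∈ t, s p x + ψ x, L, (CD.sum fun p _ => s1 p).add w1, fun x => ?_,
    fun x hx => ?_, fun x hx => ?_, fun X hX X0 X1 => ?_⟩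
  · have := Finset.sum_le_sum fun p (_ : p ∈ t) => (s2 p x).2
    simp only [hψ]
    linarith
  · simp [s3 _ x hx, w2 x ((not_lt.1 fun k => hx.not_gt (hR1 x k)).trans (le_max_right _ _))]
  · simp only [hψ]
    rw [Finset.sum_eq_zero fun p hp => le_antisymm ((s2 p x).2.trans_eq (χL x hx p hp)) (s2 p x).1,
      Finset.sum_eq_zero (χL x hx)]
    simp
  choose Z z1 z2 z3 z4 using fun p => s4 p X hX X1
  choose ρ z2 using z2
  obtain ⟨P, hP⟩ := (t.finite_toSet.image ρ).bddAbove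
  have hW := CV.smul w1 hX
  have hY : CV ∞ fun i x => ∑ p ∈ t, Z p i x + ψ x * X i x := (CV.sum fun p _ => z1 p).add hW
  have b0 : 0 < 1 + t.card * η := by positivity
  have h2 := hA (fun i x => (1 + t.card * η)⁻¹ * (∑ p ∈ t, Z p i x + ψ x * X i x))
    ⟨CV.smul cd_const hY, ⟨max P L, fun x hx i => by
      beta_reduce
      rw [Finset.sum_eq_zero fun p hp => z2 p x (((hP ⟨p, hp, rfl⟩).trans
        (le_max_left _ _)).trans_lt hx) i, X0 x ((le_max_right _ _).trans_lt hx)]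
      simp⟩, fun x _ => by
      change sq D.g x (fun i => _ * _) ≤ 1
      obtain ⟨ζ, hζ⟩ : ∃ ζ : Fin n → ℝ, ζ = fun i => ∑ p ∈ t, Z p i x + ψ x * X i x := ⟨_, rfl⟩
      have k0 : 0 ≤ sq D.g x ζ := hg.g_nonneg x ζ
      have k1 : sq D.g x ζ = ∑ p ∈ t, bil (D.g x) ζ (fun i => Z p i x) +
          ψ x * bil (D.g x) ζ fun i => X i x := by
        have : ∀ i j, D.g x i j * ζ i * ζ j = ∑ p ∈ t, D.g x i j * ζ i * Z p j x +
            ψ x * (D.g x i j * ζ i * X j x) := fun i j => by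
          rw [← Finset.mul_sum, show ζ j = _ from congrFun hζ j]
          ring
        simp only [sq, bil, this, Finset.sum_add_distrib, Finset.mul_sum]
        rw [Finset.sum_comm (s := t)]
        simp only [Finset.sum_comm (s := t)]
      have k2 := Finset.sum_le_sum fun p (_ : p ∈ t) => z3 p x ζ
      have k3 : bil (D.g x) ζ (fun i => X i x) ≤ √(sq D.g x ζ) := (le_abs_self _).trans
        (Real.abs_le_sqrt ((P366Z.quad_cs (hg.sy x) (hg.g_nonneg x) ζ _).trans
          (mul_le_of_le_one_right k0 (X1 x))))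
      have k4 : 0 ≤ ψ x := hψ ▸ sub_nonneg.2 (c4 x)
      rw [← Finset.mul_sum, Finset.sum_add_distrib, Finset.sum_const, nsmul_eq_mul] at k2
      have k5 : sq D.g x ζ ≤ √(sq D.g x ζ) * (1 + t.card * η) := by
        have := mul_le_mul_of_nonneg_left k3 k4
        simp only [hψ] at this k1
        linarith
      rw [sq_smul, ← hζ, inv_pow, inv_mul_le_iff₀ (by positivity), mul_one]
      nlinarith [Real.sq_sqrt k0, sq_nonneg (√(sq D.g x ζ) - (1 + t.card * η))]⟩
  have hK := isCompact_px M L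
  have X0' : ∀ x ∉ {x : M | ‖px x‖ ≤ L}, ∀ i, X i x = 0 := fun x hx => X0 x (not_le.1 hx)
  have i1 := fun p => Lk.int_dv hg (s1 p).cont (hX.of_le oo1) hK X0'
  have i2 := Lk.int_dv hg w1.cont (hX.of_le oo1) hK X0'
  have i3 := fun p => int_v hv v1 (int_dvd hg (z1 p) (z2 p))
  have i4 := fun p => int_v hv v1 (Lk.int_dot hg (c1 p).one (hX.of_le oo1) hK X0')
  have e1 : ∀ x, v x * dv D.g (fun i x => (1 + t.card * η)⁻¹ * (∑ p ∈ t, Z p i x + ψ x * X i x)) x *
      dens D.g x = (1 + t.card * η)⁻¹ * (∑ p ∈ t, (v x * dv D.g (Z p) x * dens D.g x -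
        v x * (∑ i, pd i (χ p) x * X i x) * dens D.g x) + ψ x * dv D.g X x * dens D.g x) := by
    intro x
    have k1 : v x * ψ x = ψ x := by
      by_cases hx : R < ‖px x‖
      · rw [vR x hx, one_mul]
      · rw [w2 x ((not_lt.1 hx).trans (le_max_left _ _)), mul_zero]
    have k2 : ∑ i, pd i ψ x * X i x = -∑ p ∈ t, ∑ i, pd i (χ p) x * X i x := by
      simp only [hψ, pd_const_sub, pd_sum t fun p _ => (c1 p).diff x, neg_mul, Finset.sum_mul,
        Finset.sum_neg_distrib]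
      rw [Finset.sum_comm]
    rw [dv_const_mul, hg.dv_add ((CV.sum fun p _ => z1 p).dv (by simp) x) (hW.dv (by simp) x),
      hg.dv_sum t fun p => (z1 p).dv (by simp) x, hg.dv_smul (w1.diff x) (hX.dv (by simp) x), k2]
    simp only [Finset.sum_sub_distrib, ← Finset.sum_mul, ← Finset.mul_sum]
    linear_combination (1 + t.card * η)⁻¹ * dv D.g X x * dens D.g x * k1
  have i5 : ∀ p, Integrable fun x => v x * dv D.g (Z p) x * dens D.g x -
      v x * (∑ i, pd i (χ p) x * X i x) * dens D.g x := fun p => (i3 p).sub (i4 p)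
  simp only [e1] at h2
  rw [integral_const_mul, inv_mul_le_iff₀ b0, integral_add (integrable_finsetSum _ fun p _ =>
    i5 p) i2, integral_finsetSum _ fun p _ => i5 p] at h2
  simp only [fun p => integral_sub (i3 p) (i4 p)] at h2
  simp only [add_mul, Finset.sum_mul]
  rw [integral_add (integrable_finsetSum _ fun p _ => i1 p) i2,
    integral_finsetSum _ fun p _ => i1 p]
  have h3 := Finset.sum_le_sum fun p (_ : p ∈ t) => z4 p
  rw [Finset.sum_add_distrib, Finset.sum_const, nsmul_eq_mul] at h3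
  nlinarith [mul_nonneg (mul_nonneg (Nat.cast_nonneg (α := ℝ) t.card) hη.le)
    (sub_nonneg.2 (le_abs_self A)), mul_nonneg hη.le (abs_nonneg A)]

/-- the total variation of a smooth function -/
theorem int_gn_le (hg : Met g) (hu : Smooth u) {L A : ℝ} (h1 : ∀ x, L < ‖px x‖ → u x = 1)
    (hA : ∀ X : Fin n → M → ℝ, CV ∞ X → (∀ x, L < ‖px x‖ → ∀ i, X i x = 0) →
      (∀ x, sq g x (fun i => X i x) ≤ 1) → ∫ x, u x * dv g X x * dens g x ≤ A) :
    Integrable (fun x => gn g u x * dens g x) ∧ ∫ x, gn g u x * dens g x ≤ A := by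
  have p0 : ∀ x, L < ‖px x‖ → ∀ i, pd i u x = 0 := fun x hx =>
    pd_zero_of_ev ((ev_lt_px hx).mono h1)
  have i0 : Integrable fun x => gn g u x * dens g x :=
    integrable_of_out (R := L + 1) ((hg.cont_gn hu.one).mul hg.sm_dens.cont) fun x hx => by
      rw [gn_zero (p0 x (by linarith)), zero_mul]
  have hq := hg.sm_ip hu hu
  have q0 := hg.ip_nonneg u
  refine ⟨i0, le_of_tendsto (b := A) (x := 𝓝[>] (0 : ℝ)) (f := fun δ : ℝ =>
    ∫ x, ip g u u x / √(δ + ip g u u x) * dens g x) ?_ ?_⟩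
  · refine tendsto_integral_filter_of_dominated_convergence _ (.of_forall fun δ =>
      ((hq.cont.measurable.div (hq.cont.measurable.const_add δ).sqrt).mul
        hg.sm_dens.cont.measurable).aestronglyMeasurable)
      (eventually_mem_nhdsWithin.mono fun δ hδ => .of_forall fun x => ?_) i0
      (.of_forall fun x => Tendsto.mul_const _ ?_)
    · have hδ' : 0 < δ := hδ
      rw [Real.norm_of_nonneg (mul_nonneg (div_nonneg (q0 x) (Real.sqrt_nonneg _))
        (dens_nonneg _ _))]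
      refine mul_le_mul_of_nonneg_right ((div_le_iff₀ (Real.sqrt_pos.2 (by linarith [q0 x]))).2 ?_)
        (dens_nonneg _ _)
      exact (Real.mul_self_sqrt (q0 x)).ge.trans (mul_le_mul_of_nonneg_left
        (Real.sqrt_le_sqrt (by linarith)) (Real.sqrt_nonneg _))
    · rcases (q0 x).eq_or_lt with h | h
      · simp [gn, ← h]
      · have : ContinuousAt (fun δ : ℝ => ip g u u x / √(δ + ip g u u x)) 0 :=
          ContinuousAt.div continuousAt_const (by fun_prop) (by simpa using (Real.sqrt_pos.2 h).ne')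
        simpa [gn] using this.tendsto.mono_left nhdsWithin_le_nhds
  · refine eventually_mem_nhdsWithin.mono fun δ hδ => ?_
    have hδ' : 0 < δ := hδ
    have r0 : ∀ x, 0 < δ + ip g u u x := fun x => by linarith [q0 x]
    have hs : Smooth fun x => -(√(δ + ip g u u x))⁻¹ := ((CD.sqrt (CD.add cd_const hq)
      fun x => (r0 x).ne').inv fun x => (Real.sqrt_pos.2 (r0 x)).ne').neg
    have hX := CV.smul hs (hg.sm_gr hu)
    have X0 : ∀ x, L < ‖px x‖ → ∀ i, -(√(δ + ip g u u x))⁻¹ * gr g u i x = 0 := fun x hx i => by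
      simp [gr, p0 x hx]
    have h2 := hA _ hX X0 fun x => by
      rw [sq_smul, sq_gr hg, neg_sq, inv_pow, Real.sq_sqrt (r0 x).le, inv_mul_le_iff₀ (r0 x)]
      linarith
    rw [Lk.ibp_dv hg hu.one (hX.of_le oo1) (isCompact_px M L) fun x hx => X0 x (not_le.1 hx),
      ← integral_neg] at h2
    refine le_trans (le_of_eq (integral_congr_ae (.of_forall fun x => ?_))) h2
    simp only [mul_left_comm _ (-(√(δ + ip g u u x))⁻¹), ← Finset.mul_sum, ← ip_eq_gr]
    ring

/-- a smooth function bounds the minimal area -/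
theorem step (D : Exterior n M) (hn : 2 ≤ n) (hu : Smooth u) {L A : ℝ} (u1 : ∀ x, u x ≤ 1)
    (u0 : ∀ x, D.F x ≤ 0 → u x = 0) (uL : ∀ x, L < ‖px x‖ → u x = 1)
    (iw : Integrable fun x => gn D.g u x * dens D.g x) (hA : ∫ x, gn D.g u x * dens D.g x ≤ A) :
    D.Amin ≤ ENNReal.ofReal A := by
  have hw : Continuous fun x => gn D.g u x * dens D.g x :=
    (D.met.cont_gn hu.one).mul D.met.sm_dens.cont
  have hw0 : ∀ x, 0 ≤ gn D.g u x * dens D.g x := fun x =>
    mul_nonneg (gn_nonneg _ _ _) (dens_nonneg _ _)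
  obtain ⟨t, ⟨t0, t1⟩, t2, t3⟩ := Lk.lev volume hu.cont.measurable hw.measurable zero_lt_one
    (cv_null hu)
  obtain ⟨β, G, hβ, hG, b1, b2, b3, b4, -⟩ := Lk.comp (t := t) (C := 2) (L := L)
    (Q := {x | D.F x ≤ 0}) hn hu (reg_of_notMem t2) (fun x hx => by rwa [uL x hx])
    (fun x => by linarith [u1 x]) (isClosed_le D.dom.1.cont continuous_const)
    fun x hx => by rwa [u0 x hx]
  refine (show D.Amin ≤ D.area G from sInf_le ⟨G, hG, fun x hx => (not_le.1 fun k =>
    (b3 x hx).not_gt (by rwa [u0 x k])).le, rfl⟩).trans (sSup_le ?_)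
  rintro _ ⟨X, ⟨hX, ⟨R, hR⟩, hX1⟩, rfl⟩
  have hβ' : Smooth fun y => 1 - β y := CD.sub cd_const hβ
  have key := Lk.ibp_lev (w := fun x => gn D.g u x * dens D.g x) (t := t) D.met hu
    ((CV.smul hβ' hX).of_le oo1) (isCompact_px M R)
    (fun x hx i => by rw [hR x (not_le.1 hx) i, mul_zero]) fun x => by
      by_cases hx : 0 < D.F x
      · have k1 := (neg_le_abs _).trans (cs D.met x (fun i => pd i u x) _ (hX1 x hx.le))
        simp only [mul_left_comm _ (1 - β x), ← Finset.mul_sum]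
        rw [← mul_neg]
        exact mul_le_mul_of_nonneg_right ((mul_le_mul_of_nonneg_left k1
          (sub_nonneg.2 (b1 x).2)).trans (mul_le_of_le_one_left (gn_nonneg _ _ _)
            (by linarith [(b1 x).1]))) (dens_nonneg _ _)
      · simp only [b2 x (not_lt.1 hx), sub_self, zero_mul, mul_zero, Finset.sum_const_zero,
          neg_zero, hw0]
  have e1 : ∫ x in {x | 0 ≤ G x}, dv D.g X x * dens D.g x =
      ∫ x in {x | t ≤ u x}, dv D.g (fun i y => (1 - β y) * X i y) x * dens D.g x := by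
    rw [← integral_indicator (isClosed_le continuous_const hG.1.cont).measurableSet,
      ← integral_indicator (isClosed_le continuous_const hu.cont).measurableSet]
    refine integral_congr_ae (.of_forall fun x => ?_)
    by_cases hx : t ≤ u x
    · rw [indicator_of_mem (show x ∈ {x | t ≤ u x} from hx),
        D.met.dv_smul (hβ'.diff x) (hX.dv (by simp) x)]
      simp only [pd_const_sub, (b4 x hx).1, (b4 x hx).2, indicator, mem_ofPred_eq]
      split_ifs <;> simp
    · rw [indicator_of_notMem (show x ∉ {x | t ≤ u x} from hx),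
        indicator_of_notMem (show x ∉ {x | 0 ≤ G x} from fun k => hx (b3 x k))]
  rw [e1]
  refine key.trans (t3.trans ?_)
  rw [← ofReal_integral_eq_lintegral_ofReal iw (.of_forall hw0), sub_zero, ENNReal.ofReal_one,
    div_one]
  exact ENNReal.ofReal_le_ofReal hA

theorem co : CO := by
  intro n M _ D v R A hn hv v1 v0 vR hA
  have h1 : ContinuousAt (fun θ : ℝ => A + θ) 0 := by fun_prop
  have h2 := ENNReal.tendsto_ofReal (h1.tendsto.mono_left (nhdsWithin_le_nhds (s := Ioi 0)))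
  rw [add_zero] at h2
  refine ge_of_tendsto h2 (eventually_mem_nhdsWithin.mono fun θ hθ => ?_)
  obtain ⟨u, L, h3, h4, h5, h6, h7⟩ := apx D hv v1 v0 vR hA hθ
  obtain ⟨h8, h9⟩ := int_gn_le D.met h3 h6 h7
  exact step D hn h3 h4 h5 h6 h8 h9

theorem mm : MM := mm_of co

end Vale.Agent.P366MM
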