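import Vale.Agent.P366Z.Link
import Mathlib.MeasureTheory.Covering.DensityTheorem

/-!
# P366MM: shifted mollification on Euclidean space
-/

open MeasureTheory Metric Set Filter Topology ContinuousLinearMap
open scoped ContDiff Convolution
open Vale.Agent.P366.Stmt Vale.Agent.P366Z

noncomputable section

namespace Vale.Agent.P366MM

variable {n : ℕ} {k f h c : E n → ℝ} {a : E n} {ε η : ℝ} {B : Set (E n)} {G : Field n}

/-- the admissible kernels -/
structure Ker (k : E n → ℝ) (a : E n) (ε : ℝ) : Prop where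
  sm : Smooth k
  cs : HasCompactSupport k
  nn : ∀ t, 0 ≤ k t
  one : ∫ t, k t = 1
  supp : ∀ t, k t ≠ 0 → ‖t - ε • a‖ ≤ ε

/-- the convolution -/
def cvl (k f : E n → ℝ) : E n → ℝ := k ⋆[lsmul ℝ ℝ, volume] f

theorem cvl_eq (k f : E n → ℝ) (y : E n) : cvl k f y = ∫ t, k t * f (y - t) := rfl

theorem cvl_swap (k f : E n → ℝ) (y : E n) : cvl k f y = ∫ t, k (y - t) * f t :=
  convolution_lsmul_swap

theorem Ker.neg (hk : Ker k a ε) : Ker (fun t => k (-t)) (-a) ε where
  sm := hk.sm.comp contDiff_neg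
  cs := hk.cs.comp_homeomorph (Homeomorph.neg _)
  nn t := hk.nn _
  one := (integral_neg_eq_self k volume).trans hk.one
  supp t ht := by
    rw [← norm_neg, show -(t - ε • -a) = -t - ε • a by module]
    exact hk.supp _ ht

theorem Ker.int (hk : Ker k a ε) : Integrable k := hk.sm.cont.integrable_of_hasCompactSupport hk.cs

theorem Ker.norm_le (hk : Ker k a ε) (hε : 0 < ε) {t : E n} (ht : k t ≠ 0) :
    ‖t‖ ≤ ε * (‖a‖ + 1) := by
  have h1 := norm_sub_norm_le t (ε • a)
  rw [norm_smul, Real.norm_of_nonneg hε.le] at h1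
  linarith [hk.supp t ht]

theorem Ker.int_le (hk : Ker k a ε) {C : ℝ} (hi : Integrable fun t => k t * h t)
    (hC : ∀ t, k t ≠ 0 → h t ≤ C) : ∫ t, k t * h t ≤ C := by
  refine (integral_mono hi (hk.int.mul_const C) fun t => ?_).trans_eq ?_
  · by_cases ht : k t = 0
    · simp [ht]
    · exact mul_le_mul_of_nonneg_left (hC t ht) (hk.nn t)
  · rw [integral_mul_const, hk.one, one_mul]

theorem abs_le_one (f1 : ∀ y, f y ∈ Icc (0 : ℝ) 1) (y : E n) : ‖f y‖ ≤ 1 :=
  (abs_of_nonneg (f1 y).1).trans_le (f1 y).2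

theorem loc_int (hf : Measurable f) (f1 : ∀ y, f y ∈ Icc (0 : ℝ) 1) : LocallyIntegrable f :=
  (memLp_top_of_bound hf.aestronglyMeasurable 1 (.of_forall (abs_le_one f1))).locallyIntegrable
    le_top

theorem Ker.sm_cvl (hk : Ker k a ε) (hf : LocallyIntegrable f) : Smooth (cvl k f) :=
  hk.cs.contDiff_convolution_left _ hk.sm hf

theorem Ker.cvl_mem (hk : Ker k a ε) (hf : Measurable f) (f1 : ∀ y, f y ∈ Icc (0 : ℝ) 1) (y : E n) :
    cvl k f y ∈ Icc (0 : ℝ) 1 :=
  ⟨integral_nonneg fun t => mul_nonneg (hk.nn t) (f1 _).1, hk.int_le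
    (hk.int.mul_bdd (c := 1) (hf.comp (by fun_prop)).aestronglyMeasurable
      (.of_forall fun _ => abs_le_one f1 _)) fun _ _ => (f1 _).2⟩

/-- the adjoint of the convolution -/
theorem Ker.adj (hk : Ker k a ε) (hf : Measurable f) (f1 : ∀ y, f y ∈ Icc (0 : ℝ) 1)
    (hh : Integrable h) : ∫ y, cvl k f y * h y = ∫ z, f z * cvl (fun t => k (-t)) h z := by
  have i1 := (hh.convolution_integrand (mul ℝ ℝ) hk.neg.int).bdd_mul (c := 1)
    (f := fun p => f p.1) (hf.comp measurable_fst).aestronglyMeasurable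
    (.of_forall fun _ => abs_le_one f1 _)
  have e := integral_integral_swap (f := fun z y => f z * (h y * k (-(z - y)))) i1
  simp only [cvl_swap, ← integral_mul_const, ← integral_const_mul]
  refine Eq.trans ?_ (e.symm.trans ?_)
  · exact integral_congr_ae (.of_forall fun y => integral_congr_ae (.of_forall fun z => by
      simp only [neg_sub]; ring))
  · exact integral_congr_ae (.of_forall fun y => integral_congr_ae (.of_forall fun z => by
      simp only [mul_comm]))

theorem exists_ker (hf : Measurable f) (f1 : ∀ y, f y ∈ Icc (0 : ℝ) 1) (hB : IsCompact B) (a : E n)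
    {P : ℝ → Prop} (hP : ∀ᶠ ε in 𝓝 (0 : ℝ), P ε) (hη : 0 < η) :
    ∃ ε k, 0 < ε ∧ P ε ∧ Ker k a ε ∧ ∫ y in B, |cvl k f y - f y| ≤ η := by
  obtain ⟨e, he⟩ : ∃ e : ℕ → ℝ, e = fun j : ℕ => 1 / ((j : ℝ) + 1) := ⟨_, rfl⟩
  have hp : ∀ j, 0 < e j := fun j => by rw [he]; positivity
  have h0 : Tendsto e atTop (𝓝 0) := he ▸ tendsto_one_div_add_atTop_nhds_zero_nat
  let φ : ∀ j : ℕ, ContDiffBump (e j • a) := fun j =>
    ⟨e j / 2, e j, half_pos (hp j), half_lt_self (hp j)⟩
  have hk : ∀ j, Ker ((φ j).normed volume) a (e j) := fun j =>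
    ⟨(φ j).contDiff_normed, (φ j).hasCompactSupport_normed, (φ j).nonneg_normed,
      (φ j).integral_normed, fun t ht => (mem_ball_iff_norm.1 ((φ j).support_normed_eq.subset ht)).le⟩
  have hl := loc_int hf f1
  have h1 : ∀ᵐ y, Tendsto (fun j => cvl ((φ j).normed volume) f y) atTop (𝓝 (f y)) := by
    filter_upwards [IsUnifLocDoublingMeasure.ae_tendsto_average_norm_sub volume hl ‖a‖] with y hy
    simp only [cvl_swap]
    refine tendsto_integral_smul_of_tendsto_average_norm_sub (2 ^ Module.finrank ℝ (E n))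
      (hy (fun j => y - e j • a) e (tendsto_nhdsWithin_iff.2 ⟨h0, .of_forall hp⟩)
        (.of_forall fun j => ?_)) (.of_forall fun j => hl.integrableOn_isCompact
          (isCompact_closedBall _ _)) (tendsto_const_nhds.congr fun j => ?_)
      (.of_forall fun j t ht => ?_) (.of_forall fun j t => ?_)
    · rw [mem_closedBall_iff_norm, sub_sub_cancel, norm_smul, Real.norm_of_nonneg (hp j).le,
        mul_comm]
    · rw [integral_sub_left_eq_self ((φ j).normed volume) volume y, (hk j).one]
    · rw [mem_closedBall_iff_norm', sub_right_comm]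
      exact (hk j).supp _ ht
    · rw [abs_of_nonneg ((hk j).nn _), Measure.addHaar_real_closedBall_center,
        ← Measure.addHaar_real_closedBall_center volume (e j • a)]
      exact (φ j).normed_le_div_measure_closedBall_rOut _ 2 (le_of_eq (by simp only [φ]; ring)) _
  have : IsFiniteMeasure (volume.restrict B) := ⟨by simpa using hB.measure_lt_top⟩
  have h2 : Tendsto (fun j => ∫ y in B, |cvl ((φ j).normed volume) f y - f y|) atTop
      (𝓝 (∫ _ in B, (0 : ℝ))) := by
    refine tendsto_integral_of_dominated_convergence (fun _ => 1) (fun j =>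
      (((hk j).sm_cvl hl).cont.measurable.sub hf).norm.aestronglyMeasurable) (integrable_const 1)
      (fun j => .of_forall fun y => ?_) ((ae_restrict_of_ae h1).mono fun y hy => ?_)
    · have := (hk j).cvl_mem hf f1 y
      rw [Real.norm_eq_abs, abs_abs, abs_le]
      constructor <;> linarith [this.1, this.2, (f1 y).1, (f1 y).2]
    · simpa using (hy.sub_const (f y)).abs
  rw [integral_zero] at h2
  obtain ⟨j, h3, h4⟩ := ((h2.eventually (gt_mem_nhds hη)).and (h0.eventually hP)).exists
  exact ⟨e j, _, hp j, h4, hk j, h3.le⟩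

/-- the bilinear form -/
def bil (T : Fin n → Fin n → ℝ) (ζ ξ : Fin n → ℝ) : ℝ := ∑ i, ∑ j, T i j * ζ i * ξ j

theorem bil_smul (T : Fin n → Fin n → ℝ) (s : ℝ) (ξ : Fin n → ℝ) :
    √(bil T (s • ξ) (s • ξ)) = |s| * √(bil T ξ ξ) := by
  rw [← Real.sqrt_sq_eq_abs, ← Real.sqrt_mul (sq_nonneg s)]
  refine congrArg _ ?_
  simp only [bil, Finset.mul_sum, Pi.smul_apply, smul_eq_mul]
  exact Finset.sum_congr rfl fun i _ => Finset.sum_congr rfl fun j _ => by ring

theorem bil_cs (hG : Met G) (y : E n) (ζ ξ : Fin n → ℝ) :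
    bil (G y) ζ ξ ≤ √(bil (G y) ζ ζ) * √(bil (G y) ξ ξ) := by
  rw [← Real.sqrt_mul (show 0 ≤ bil (G y) ζ ζ from hG.g_nonneg y ζ)]
  exact (le_abs_self _).trans (Real.abs_le_sqrt (quad_cs (hG.sy y) (hG.g_nonneg y) ζ ξ))

/-- the comparison of the data at neighbouring points -/
theorem tube (hG : Met G) (hc : Continuous c) (hB : IsCompact B) (hη : 0 < η) :
    ∀ᶠ w in 𝓝 (0 : E n), ∀ y ∈ B, ∀ ξ : Fin n → ℝ, dens G y * c y / dens G (y + w) *
      √(bil (G (y + w)) ξ ξ) ≤ (c (y + w) + η) * √(bil (G y) ξ ξ) := by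
  have cq : Continuous fun q : E n × (Fin n → ℝ) => √(bil (G q.1) q.2 q.2) :=
    (continuous_finsetSum _ fun i _ => continuous_finsetSum _ fun j _ =>
      (((hG.sm i j).cont.comp continuous_fst).mul (by fun_prop)).mul (by fun_prop)).sqrt
  have cd := hG.sm_dens.cont
  refine ((hB.prod (isCompact_sphere (0 : Fin n → ℝ) 1)).eventually_forall_of_forall_eventually
    (P := fun (w : E n) (q : E n × (Fin n → ℝ)) => dens G q.1 * c q.1 / dens G (q.1 + w) *
      √(bil (G (q.1 + w)) q.2 q.2) < (c (q.1 + w) + η) * √(bil (G q.1) q.2 q.2))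
    fun q hq => ?_).mono fun w hw y hy ξ => ?_
  · refine ContinuousAt.eventually_lt (Continuous.continuousAt ?_) (Continuous.continuousAt ?_) ?_
    · exact (Continuous.div (by fun_prop) (by fun_prop) fun _ => (hG.dens_pos _).ne').mul
        (cq.comp (f := fun z : E n × E n × (Fin n → ℝ) => (z.2.1 + z.1, z.2.2)) (by fun_prop))
    · exact Continuous.mul (by fun_prop) (cq.comp continuous_snd)
    · have h1 : q.2 ≠ 0 := fun e => by simpa [e] using hq.2
      simp only [add_zero, mul_div_cancel_left₀ _ (hG.dens_pos _).ne']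
      exact mul_lt_mul_of_pos_right (by linarith) (Real.sqrt_pos.2 (hG.g_pos _ h1))
  · rcases eq_or_ne ξ 0 with rfl | h0
    · simp [bil]
    · have h1 := (hw (y, ‖ξ‖⁻¹ • ξ) ⟨hy, by simp [norm_smul, h0]⟩).le
      simp only [bil_smul] at h1
      rw [mul_left_comm, mul_left_comm (c (y + w) + η)] at h1
      exact le_of_mul_le_mul_left h1 (abs_pos.2 (inv_ne_zero (norm_ne_zero_iff.2 h0)))

/-- **one piece** -/
theorem pieceE (hG : Met G) (hc : Smooth c) (c0 : ∀ y, 0 ≤ c y) (hB : IsCompact B)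
    (cB : ∀ y ∉ B, c y = 0) (hf : Measurable f) (f1 : ∀ y, f y ∈ Icc (0 : ℝ) 1) (a : E n) {δ : ℝ}
    (hδ : 0 < δ) (hη : 0 < η) : ∃ ε s, 0 < ε ∧ ε < δ ∧ Smooth s ∧ (∀ y, s y ∈ Icc (0 : ℝ) 1) ∧
      (∀ y, (∀ y', ‖y - y' - ε • a‖ ≤ ε → f y' = 0) → s y = 0) ∧
      ∀ X : Fin n → E n → ℝ, (∀ i, Smooth (X i)) →
        (∀ y, bil (G y) (fun i => X i y) (fun i => X i y) ≤ 1) →
        ∃ (X' : Fin n → E n → ℝ) (B' : Set (E n)), (∀ i, Smooth (X' i)) ∧ IsCompact B' ∧
          (∀ y ∉ B', ∀ i, X' i y = 0) ∧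
          (∀ y ζ, bil (G y) ζ (fun i => X' i y) ≤ √(bil (G y) ζ ζ) * (c y + η)) ∧
          ∫ y, c y * s y * dv G X y * dens G y ≤ (∫ y, f y * dv G X' y * dens G y) -
            (∫ y, f y * (∑ i, pd i c y * X i y) * dens G y) + η := by
  obtain ⟨r, hr, ht⟩ := Metric.eventually_nhds_iff.1 (tube hG hc.cont hB hη)
  have c1 : Continuous fun y => covNorm G (fun i => pd i c) y * dens G y :=
    ((hG.sm_ip hc hc).cont.sqrt).mul hG.sm_dens.cont
  obtain ⟨C, hC⟩ := hB.exists_bound_of_continuousOn c1.continuousOn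
  have C0 : 0 < |C| + 1 := by positivity
  obtain ⟨ε, k, e0, ⟨e1, e2⟩, hk, e3⟩ := exists_ker hf f1 hB a
    (P := fun ε => ε < δ ∧ ε * (‖a‖ + 1) < r) ((gt_mem_nhds hδ).and
      (ContinuousAt.eventually_lt (by fun_prop) continuousAt_const (by simpa using hr)))
    (div_pos hη C0)
  have hs := hk.sm_cvl (loc_int hf f1)
  have s1 := hk.cvl_mem hf f1
  refine ⟨ε, cvl k f, e0, e1, hs, s1, fun y hy => ?_, fun X hX X1 => ?_⟩
  · refine integral_eq_zero_of_ae (.of_forall fun t => ?_)
    by_cases h : k t = 0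
    · simp [h]
    · simp [hy (y - t) (by simpa using hk.supp t h)]
  obtain ⟨H, hH⟩ : ∃ H : Fin n → E n → ℝ, H = fun i y => dens G y * (c y * X i y) := ⟨_, rfl⟩
  have H1 : ∀ i, Smooth (H i) := fun i => hH ▸ hG.sm_dens.mul (hc.mul (hX i))
  have H2 : ∀ i, HasCompactSupport (H i) := fun i => HasCompactSupport.intro hB fun y hy => by
    simp [hH, cB y hy]
  have d0 := fun y => (hG.dens_pos y).ne'
  have hk' := hk.neg
  have H3 : ∀ i, Smooth (cvl (fun t => k (-t)) (H i)) := fun i =>
    hk'.sm_cvl (H1 i).cont.locallyIntegrable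
  have pz : ∀ y ∉ B, ∀ i, pd i c y = 0 := fun y hy i => by
    rw [pd_congr (Eventually.mono (hB.isClosed.isOpen_compl.mem_nhds hy) cB), pd_const]
  refine ⟨fun i y => cvl (fun t => k (-t)) (H i) y / dens G y,
    ⋃ i, tsupport (cvl (fun t => k (-t)) (H i)), fun i => (H3 i).div hG.sm_dens d0,
    isCompact_iUnion fun i => hk'.cs.convolution _ (H2 i), fun y hy i => ?_, fun z ζ => ?_, ?_⟩
  · exact div_eq_zero_iff.2 (.inl (image_eq_zero_of_notMem_tsupport fun l =>
      hy (mem_iUnion.2 ⟨i, l⟩)))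
  · have i1 : ∀ i j, Integrable fun t => k (-t) * (G z i j * ζ i * (H j (z - t) / dens G z)) :=
      fun i j => (hk'.sm.cont.mul (continuous_const.mul (((H1 j).cont.comp
        (by fun_prop)).div_const _))).integrable_of_hasCompactSupport hk'.cs.mul_right
    have e4 : bil (G z) ζ (fun i => cvl (fun t => k (-t)) (H i) z / dens G z) =
        ∫ t, k (-t) * ∑ i, ∑ j, G z i j * ζ i * (H j (z - t) / dens G z) := by
      simp only [Finset.mul_sum]
      rw [integral_finsetSum _ fun i _ => integrable_finsetSum _ fun j _ => i1 i j]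
      refine Finset.sum_congr rfl fun i _ => ?_
      rw [integral_finsetSum _ fun j _ => i1 i j]
      refine Finset.sum_congr rfl fun j _ => ?_
      simp only [cvl_eq]
      rw [← integral_div, ← integral_const_mul]
      exact integral_congr_ae (.of_forall fun t => by ring)
    rw [e4]
    refine hk'.int_le (by
      simp only [Finset.mul_sum]
      exact integrable_finsetSum _ fun i _ => integrable_finsetSum _ fun j _ => i1 i j)
      fun t ht' => ?_
    have p0 : 0 ≤ c z + η := by linarith [c0 z]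
    have e5 : ∑ i, ∑ j, G z i j * ζ i * (H j (z - t) / dens G z) = dens G (z - t) * c (z - t) /
        dens G z * bil (G z) ζ fun i => X i (z - t) := by
      simp only [bil, Finset.mul_sum, hH]
      exact Finset.sum_congr rfl fun i _ => Finset.sum_congr rfl fun j _ => by ring
    rw [e5]
    by_cases hy : z - t ∈ B
    · have h1 := ht (y := t) (by simpa using (hk'.norm_le e0 ht').trans_lt (by simpa using e2))
        (z - t) hy fun i => X i (z - t)
      rw [sub_add_cancel] at h1
      refine (mul_le_mul_of_nonneg_left (bil_cs hG z _ _) (div_nonneg (mul_nonneg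
        (dens_nonneg _ _) (c0 _)) (dens_nonneg _ _))).trans ?_
      rw [mul_left_comm]
      exact mul_le_mul_of_nonneg_left (h1.trans (mul_le_of_le_one_right p0
        (Real.sqrt_le_one.2 (X1 _)))) (Real.sqrt_nonneg _)
    · simpa [cB _ hy] using mul_nonneg (Real.sqrt_nonneg _) p0
  · have ip : ∀ i, Integrable (pd i (H i)) := fun i =>
      ((H1 i).pd i).cont.integrable_of_hasCompactSupport (HasCompactSupport.intro hB fun y hy => by
        rw [pd_congr (h := fun _ => 0) (Eventually.mono (hB.isClosed.isOpen_compl.mem_nhds hy)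
          fun z hz => by simp [hH, cB z hz]), pd_const])
    obtain ⟨T, hT⟩ : ∃ T : E n → ℝ, T = fun y => (∑ i, pd i c y * X i y) * dens G y := ⟨_, rfl⟩
    have T0 : ∀ y ∉ B, T y = 0 := fun y hy => by simp [hT, pz y hy]
    have iT : Integrable T := Continuous.integrable_of_hasCompactSupport (hT ▸ (continuous_finsetSum
      _ fun i _ => (hc.pd i).cont.mul (hX i).cont).mul hG.sm_dens.cont) (.intro hB T0)
    have bm : ∀ {u w : E n → ℝ}, Measurable u → (∀ y, u y ∈ Icc (0 : ℝ) 1) → Integrable w →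
        Integrable fun y => u y * w y := fun h1 h2 h3 =>
      h3.bdd_mul (c := 1) h1.aestronglyMeasurable (.of_forall (abs_le_one h2))
    have e4 : ∀ y, c y * cvl k f y * dv G X y * dens G y =
        ∑ i, cvl k f y * pd i (H i) y - cvl k f y * T y := fun y => by
      have h1 := hG.dv_smul (hc.diff y) fun i => (hX i).diff y
      rw [dv, div_eq_iff (d0 y)] at h1
      simp only [← Finset.mul_sum, hH, hT, h1]
      ring
    have e5 : ∀ y, f y * dv G (fun i y => cvl (fun t => k (-t)) (H i) y / dens G y) y * dens G y =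
        ∑ i, f y * cvl (fun t => k (-t)) (pd i (H i)) y := fun y => by
      simp only [dv, mul_div_cancel₀ _ (d0 _), mul_assoc, div_mul_cancel₀ _ (d0 _),
        ← Finset.mul_sum]
      exact congrArg _ (Finset.sum_congr rfl fun i _ => Lk.pd_conv hk'.sm.cont hk'.cs
        (lip_of_supp ((H1 i).of_le (by exact_mod_cast le_top)) (H2 i)) i y)
    have i2 := bm hs.cont.measurable s1 iT
    have i3 := bm hf f1 iT
    simp only [e4, e5]
    rw [integral_sub (integrable_finsetSum _ fun i _ => bm hs.cont.measurable s1 (ip i)) i2,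
      integral_finsetSum _ fun i _ => bm hs.cont.measurable s1 (ip i),
      integral_finsetSum _ fun i _ => bm (w := cvl (fun t => k (-t)) (pd i (H i))) hf f1
        (hk'.int.integrable_convolution _ (ip i))]
    simp only [fun i => hk.adj hf f1 (ip i)]
    have e6 : ∫ y, f y * T y - cvl k f y * T y ≤ η := by
      rw [← setIntegral_eq_integral_of_forall_compl_eq_zero (s := B) fun y hy => by simp [T0 y hy]]
      have i4 : IntegrableOn (fun y => |cvl k f y - f y|) B :=
        (((hs.cont.locallyIntegrable).sub (loc_int hf f1)).integrableOn_isCompact hB).abs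
      refine (setIntegral_mono_on (i3.sub i2).integrableOn (i4.mul_const (|C| + 1))
        hB.measurableSet fun y hy => ?_).trans ?_
      · have h1 := Lk.cs hG y (fun i => pd i c y) _ (X1 y)
        have h2 := Lk.cs hG y (fun i => -pd i c y) _ (X1 y)
        simp only [covNorm, neg_mul, mul_neg, neg_neg, Finset.sum_neg_distrib] at h1 h2
        have h3 : |T y| ≤ |C| + 1 := by
          rw [hT, abs_mul, abs_of_nonneg (dens_nonneg _ _)]
          refine (mul_le_mul_of_nonneg_right (abs_le'.2 ⟨h2, h1⟩) (dens_nonneg _ _)).trans ?_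
          exact (le_abs_self _).trans ((hC y hy).trans (by linarith [le_abs_self C]))
        rw [Pi.sub_apply, ← sub_mul, abs_sub_comm]
        exact (le_abs_self _).trans ((abs_mul _ _).trans_le
          (mul_le_mul_of_nonneg_left h3 (abs_nonneg _)))
      · rw [integral_mul_const]
        exact (le_div_iff₀ C0).1 e3
    rw [integral_sub i3 i2] at e6
    simp only [hT, mul_assoc] at e6 ⊢
    linarith

end Vale.Agent.P366MM
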