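import Vale.Agent.P366MM.Defs
import Vale.Agent.P366Q.G.LinkB

/-!
# P366MM: the flux as an integral of the divergence; the lower bound
-/

open MeasureTheory Set Filter Topology
open scoped ContDiff
open Vale.Agent.P366M

noncomputable section

namespace Vale.Agent.P366MM

variable {n : ℕ} {M : Type} [Mfe n M] {g g' : Fld n M} {X Y Z : Fin n → M → ℝ} {R : ℝ}

theorem oo1 : (1 : WithTop ℕ∞) ≤ ∞ := by exact_mod_cast le_top

/-- the divergence of a vector density does not depend on the metric -/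
theorem dv_dens (hg : Met g) (hg' : Met g') (Y : Fin n → M → ℝ) (x : M) :
    dv g' (fun i y => dens g y / dens g' y * Y i y) x * dens g' x = dv g Y x * dens g x := by
  have he := ch_mem x
  have h1 := dens_loc he g (pt x)
  have h2 := dens_loc he g' (pt x)
  rw [symm_pt] at h1 h2
  have p1 : ∀ y, P366Z.dens (rep (ch x) g) y ≠ 0 := fun y => ((hg.rep he).dens_pos y).ne'
  have p2 : ∀ y, P366Z.dens (rep (ch x) g') y ≠ 0 := fun y => ((hg'.rep he).dens_pos y).ne'
  have p3 : ∀ y, P366Z.dens (rep (ch x) bg) y ≠ 0 := fun y => ((bg_met.rep he).dens_pos y).ne'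
  have k : ∀ i, (fun y => P366Z.dens (rep (ch x) g') y *
      (loc (ch x) (fun y => dens g y / dens g' y) y * repV (ch x) Y i y)) =
      fun y => P366Z.dens (rep (ch x) g) y * repV (ch x) Y i y := fun i => funext fun y => by
    rw [loc_apply, dens_loc he g, dens_loc he g']
    field_simp [p1 y, p2 y, p3 y]
  unfold dv P366Z.dv
  rw [repV_smul, h1, h2]
  simp only [k]
  field_simp [p1 (pt x), p2 (pt x), p3 (pt x)]

theorem meas_lt_px (R : ℝ) : MeasurableSet {x : M | R < ‖px x‖} :=
  (isOpen_lt continuous_const cont_npx).measurableSet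

theorem cont_dvd (hg : Met g) (hY : CV ∞ Y) : Continuous fun x => dv g Y x * dens g x :=
  (hg.sm_dv hY).cont.mul hg.sm_dens.cont

theorem int_dvd (hg : Met g) (hZ : CV ∞ Z) (h : ∀ x, R < ‖px x‖ → ∀ i, Z i x = 0) :
    Integrable fun x => dv g Z x * dens g x := by
  simpa using Lk.int_dv (φ := fun _ => 1) hg continuous_const (hZ.of_le oo1) (isCompact_px M R)
    fun x hx => h x (not_le.1 hx)

theorem integral_dvd (hg : Met g) (hZ : CV ∞ Z) (h : ∀ x, R < ‖px x‖ → ∀ i, Z i x = 0) :
    ∫ x, dv g Z x * dens g x = 0 :=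
  hg.integral_dv (hZ.of_le oo1) (isCompact_px M R) fun x hx => h x (not_le.1 hx)

/-- the integral over a set is minus the integral over the complement -/
theorem integral_compl_dvd (hg : Met g) (hZ : CV ∞ Z) (h : ∀ x, R < ‖px x‖ → ∀ i, Z i x = 0)
    {s : Set M} (hs : MeasurableSet s) :
    ∫ x in sᶜ, dv g Z x * dens g x = -∫ x in s, dv g Z x * dens g x := by
  have := integral_add_compl hs (int_dvd hg hZ h)
  rw [integral_dvd hg hZ h] at this
  linarith

theorem dv_cut {ρ : ℝ} {x : M} (hx : ‖px x‖ < ρ) :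
    dv g (fun i y => cut ρ y * Y i y) x = dv g Y x :=
  dv_congr fun i => (cut_ev_in hx).mono fun z hz => by simp only [hz, one_mul]

theorem cut_out {ρ : ℝ} (hρ : 0 < ρ) (Y : Fin n → M → ℝ) (x : M) (hx : 2 * ρ < ‖px x‖)
    (i : Fin n) : cut ρ x * Y i x = 0 := by rw [cut_zero hρ hx.le, zero_mul]

/-- **the flux is the integral of the divergence over the inside** -/
theorem fx_eq (hg : Met g) (hR : 0 < R) (hY : CV ∞ Y) :
    fx g R Y = ∫ x in {x : M | ‖px x‖ ≤ R}, dv g Y x * dens g x := by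
  have h := integral_compl_dvd hg (CV.smul (sm_cut (2 * R)) hY) (cut_out (by linarith) Y)
    (meas_lt_px R)
  have e : {x : M | R < ‖px x‖}ᶜ = {x : M | ‖px x‖ ≤ R} :=
    Set.ext fun x => not_lt (a := R)
  rw [fx, ← h, e]
  exact setIntegral_congr_fun (meas_px_le R) fun x hx =>
    congrArg (· * dens g x) (dv_cut (lt_of_le_of_lt hx (by linarith)))

theorem cpt_ins (D : Exterior n M) (R : ℝ) : IsCompact (Ins D R) :=
  (isCompact_px M R).of_isClosed_subset ((isClosed_le continuous_const D.dom.1.cont).inter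
    (isClosed_le cont_npx continuous_const)) fun _ hx => hx.2

theorem meas_ins (D : Exterior n M) (R : ℝ) : MeasurableSet (Ins D R) := (cpt_ins D R).measurableSet

theorem sq_smul (g : Fld n M) (x : M) (c : ℝ) (X : Fin n → ℝ) :
    sq g x (fun i => c * X i) = c ^ 2 * sq g x X := by
  simp only [sq, Finset.mul_sum]
  exact Finset.sum_congr rfl fun i _ => Finset.sum_congr rfl fun j _ => by ring

theorem lb : LB := by
  intro n M _ D D' R Y hF hR hY hs hd
  refine le_sInf ?_
  rintro _ ⟨G, hG, hGF, rfl⟩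
  obtain ⟨R1, hR1⟩ := hG.2.2.2
  obtain ⟨ρ, h1, h2⟩ : ∃ ρ, R < ρ ∧ R1 < ρ :=
    ⟨max R R1 + 1, by linarith [le_max_left R R1], by linarith [le_max_right R R1]⟩
  have hρ : 0 < ρ := hR.trans h1
  have g0 := D.met.dens_pos
  have g1 := D'.met.dens_pos
  have hZ : CV ∞ fun i y => -1 * (cut ρ y * Y i y) := CV.smul cd_const (CV.smul (sm_cut ρ) hY)
  have hq : Smooth fun y => dens D.g y / dens D'.g y :=
    CD.div D.met.sm_dens D'.met.sm_dens fun y => (g1 y).ne'
  have mG : MeasurableSet {x | 0 ≤ G x} := (isClosed_le continuous_const hG.1.cont).measurableSet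
  refine le_trans (ENNReal.ofReal_le_ofReal ?_) (le_sSup ⟨fun i y => dens D.g y / dens D'.g y *
    (-1 * (cut ρ y * Y i y)), ⟨CV.smul hq hZ, ⟨2 * ρ, fun x hx i => ?_⟩, fun x hx => ?_⟩, rfl⟩)
  · simp only [dv_dens D.met D'.met, dv_const_mul, mul_assoc]
    rw [integral_const_mul, neg_one_mul, ← integral_compl_dvd D.met (CV.smul (sm_cut ρ) hY)
      (cut_out hρ Y) mG, Lf, fx_eq D.met hR hY]
    have c1 := cont_dvd D.met hY
    have c2 : Continuous fun x => max (dv D.g Y x) 0 * dens D.g x :=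
      ((D.met.sm_dv hY).cont.max continuous_const).mul D.met.sm_dens.cont
    have i1 := (c1.continuousOn.integrableOn_compact (μ := volume)
      (isCompact_px M R)).integrable_indicator (meas_px_le R)
    have i2 := (c2.continuousOn.integrableOn_compact (μ := volume)
      (cpt_ins D R)).integrable_indicator (meas_ins D R)
    have i3 := (int_dvd D.met (CV.smul (sm_cut ρ) hY) (cut_out hρ Y)).indicator mG.compl
    rw [← integral_indicator (meas_px_le R), ← integral_indicator (meas_ins D R),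
      ← integral_indicator mG.compl, ← integral_sub i1 i2]
    refine integral_mono (i1.sub i2) i3 fun x => ?_
    have m0 : 0 ≤ max (dv D.g Y x) 0 * dens D.g x := mul_nonneg (le_max_right _ _) (g0 x).le
    have m1 : dv D.g Y x * dens D.g x ≤ max (dv D.g Y x) 0 * dens D.g x :=
      mul_le_mul_of_nonneg_right (le_max_left _ _) (g0 x).le
    simp only [indicator, mem_ofPred_eq, mem_compl_iff, Ins]
    by_cases hx : 0 ≤ G x
    · have := (hF x).1 (hGF x hx)
      by_cases hr : ‖px x‖ ≤ R <;> simp [hx, hr, this, m1]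
    · rw [if_pos hx, dv_cut (lt_of_le_of_lt (not_lt.1 fun k => hx (hR1 x k).le) h2)]
      by_cases hr : ‖px x‖ ≤ R
      · by_cases hx' : 0 ≤ D.F x <;> simp [hr, hx', m0]
      · have := mul_nonneg (hd x (not_le.1 hr)) (g0 x).le
        simpa [hr] using this
  · simp only [cut_out hρ Y x hx, mul_zero]
  · have h3 := hs x ((hF x).1 hx)
    have h4 := D'.met.g_nonneg x fun i => Y i x
    have h5 : cut ρ x ^ 2 ≤ 1 := pow_le_one₀ (cut_nonneg _ _) (cut_le_one _ _)
    change sq D'.g x (fun i => _ * (-1 * (cut ρ x * Y i x))) ≤ 1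
    rw [sq_smul, sq_smul, sq_smul, div_pow, div_mul_eq_mul_div, div_le_one (pow_pos (g1 x) 2)]
    change 0 ≤ sq D'.g x fun i => Y i x at h4
    nlinarith [mul_nonneg (sq_nonneg (dens D.g x)) (mul_nonneg (sub_nonneg.2 h5) h4)]

end Vale.Agent.P366MM
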